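import Vale.Agent.P270Q.Top2
import Vale.Agent.P270R.Gae43
import Vale.Agent.P270Z.Sa

/-!
# P270Z: generalised abundance in all dimensions, from the intermediate case and non vanishing
-/

open Set Filter Function
open Vale.Agent.P272.K Vale.Agent.P285.H281.FD Vale.Agent.P281Z Vale.Agent.P280Z
open Vale.Agent.P277.HD (pull)
open Vale.Agent.P285N.Tp (Rd Eff rows o1g flc)
open Vale.Agent.P285N.St (SubPair Psef Iso)
open Vale.Agent.P285W.J (Tr nf_of)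
open Vale.Agent.P285W.Bs (Cp)
open Vale.Agent.P285S (Pse SA)
open Vale.Agent.P285S.B2 (Zr Nu)
open Vale.Agent.P285S.Mm.Ps (NVS)
open Vale.Agent.P285S.St (back)
open Vale.Agent.P285L.St (SetupC NefC NumSemiampleX)
open Vale.Agent.P285L.Cn
open Vale.Agent.P280Z.Co (ct ct_ok)
open Vale.Agent.P285T.Cb (Ud)
open Vale.Agent.P270G (GA Gq)
open Vale.Agent.P270Q (NOR)
open Vale.Agent.P270R

namespace Vale.Agent.P270Z

open P270H in
/-- the case of a fibration by trivial subvarieties -/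
theorem cbe {n : ℕ} (gae : ∀ w < n, GAE w) {V : Mf n} {Q : Rd V} {D : Bd V.X}
    {t : D.ι → V.X → ℂ} {q : ℕ} {C L : Bd V.X} (h : Gq Q D t q C L)
    (hd : ¬ Neg n (P285W.Bs.Gd ct V (ct.c1 V Q.L) 1)) : NumSemiample n Q.L := by
  obtain ⟨hQ, K, eC, lL, nL, iso⟩ := h
  have := hQ.conn
  have hC := P270G.psef_eff K.lb eC
  have crp := P270H.crp
  obtain ⟨d', h1, h2, h3⟩ := P285T.Cb.AsmH.mx
    (p := fun d => ¬ Neg n (P285W.Bs.Gd ct V (ct.c1 V Q.L) d)) (fun _ => P285T.Cb.AsmH.gd_le) hd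
  have h4 := P285T.Cb.AsmH.gd_le h2
  obtain ⟨e, rfl⟩ : ∃ e, d' = e + 1 := ⟨d' - 1, by omega⟩
  obtain ⟨w, rfl⟩ : ∃ w, n = w + (e + 1) := ⟨n - (e + 1), by omega⟩
  obtain ⟨M, U, E, hU, h5⟩ := st071 ds2 ct ct_ok w e V Q D t q C L hQ K hC lL nL iso h2
    (not_not.1 h3)
  obtain ⟨m, h6⟩ := P285T.Cb.one0 w (e + 1) M hU.fb (Mf.Prj.kah hU.ok.prj) (Mf.Prj.kah hU.prj)
    (fk03 ct ct_ok flc w e V Q M U C E hU h5) (fk1_of rf ct ct_ok flc w e V Q M U C E hU)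
  obtain ⟨M₀, F, A, u, v, ⟨U₀, E₀, k0⟩, k1, k2, k3, k4, k5⟩ := P285T.Cb.cbf w (e + 1) m
    (fun M => ∃ (U : Ud Q M) (E : Bd M.Y.X), Ok ct U C E) (fun _ ⟨_, _, k⟩ => ⟨k.ok.prj, k.prj⟩)
    (fun M M₁ u v ⟨U, E, k⟩ a b c d f =>
      (crp ct ct_ok flc w e V Q M U C E k M₁ u v a b c d f).imp fun _ k => k.imp fun _ k => k.1)
    M ⟨U, E, hU⟩ h6
  obtain ⟨U₁, E₁, k6, k7⟩ := crp ct ct_ok flc w e V Q M₀ U₀ C E₀ k0 F.T.toFb u v k1.or.sn.ok k2 k3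
    k4 k1.or.sn.connG
  obtain ⟨B, A', z, b1, b2⟩ := wpr53 (nzt61 rf) (hor61 rf) P285T.Cb.cle59 P285T.Cb.zar1b
    P285T.Cb.zar97 ct ct_ok flc w e m V Q F A U₁ C E₁ k6 k1 fun l => (k5 l).imp_left (k7 l)
  obtain ⟨S₀, hπ⟩ := k6.md
  have ps : Pse F.T.Y (cls w B.P) := psb ct ct_ok _ w F.T.X F.T.Y _ k6.fb.fibn.hol U₁.P B.P
    (z * U₁.c) ⟨k6.ok.conn, k6.ok.prj⟩ b1.cp k6.fb.fibn.surj k6.ok.lb b1.lb
    (by rw [b2.cl, map_smul, k6.cE, smul_smul, Nat.cast_mul])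
    (k6.cl ▸ P270V.pse_up71 hπ hQ.prj k6.lbC hC _)
  have ne := ned66 ct_ok flc k6 eC b1.lb b2.cl
  obtain ⟨κ, ι, _, P, μ, N, τ, z', b3, b4⟩ := gdw w _ B b1 (amb w _ B b1 (fke66 b1 ne))
  obtain ⟨M', b5⟩ := gup3_of fpu ct ct_ok w _ B κ ι P μ N τ z' z U₁.D E₁ b1 ps b3 b4 k6.lbD k6.lbE
    k6.nfD k6.nfE b2.cl (fpd_of lam ct ct_ok flc w e V Q _ U₁ C E₁ k6 B A' z b1 b2)
  obtain ⟨S, hτ⟩ := b3.md
  refine end3 ct ct_ok flc w e V Q _ U₁ C E₁ k6 (Sm.down ct_ok hτ (Nat.mul_pos b3.zp b2.zp) ?_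
    (gae w (by omega) ct ct_ok κ ι P μ N flc _ M' b5 (C66.up hτ b1.lb ne b3.ok.lb b3.cl)))
  rw [ct_ok.c1.pow _ _ _ (hτ.hol.lb k6.lbD), ct_ok.c1.pull hτ.hol _ k6.lbD]

theorem gae_of {w : ℕ} (ga : GA w) : GAE w :=
  (le_or_gt w 4).elim (fun h T hT κ ι _ A m N hF L M g _ =>
    P270H.gag w h T hT κ ι A m N hF L M g) fun h => G43.gae43 ga (by omega)

open P270G in
theorem ga_step {d : ℕ} (no : NOR d) (sa : SA fun e _ L => e = d + 1 ∧ Eff e L)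
    (ih : ∀ w < d + 1, GA w) : GA (d + 1) := by
  intro V Q D t q C M h
  have hT := ct_ok
  have hL := h.ok.bir.res.lbL
  have cV : Cp V := ⟨h.ok.conn, h.ok.prj⟩
  by_cases h2 : Zr ct V (ct.c1 V Q.L ^ 2)
  · exact h.one rows o1g h2
  by_cases h3 : Zr ct V (ct.c1 V Q.L ^ (d + 1))
  swap
  · obtain ⟨κ, ι, _, A, m, N, π, S, hπ, a, g1, g2, g3, g4⟩ := gdf_of rgq fpf _ ct hT V Q D t q C M h
      (kd3 ct hT _ V _ M cV hL h.lb (h.nf rows) h.nef h3)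
    exact nsd ct hT flc _ V A.Z π S hπ _ A.P a cV g1.ok.prj hL g1.ok.lb
      (sa _ κ ι A m N g1 ⟨rfl, g2⟩) g3 g4
  classical
  have := cV.conn
  have ex : ∃ j, Zr ct V (ct.c1 V Q.L ^ (j + 1)) := ⟨d, h3⟩
  have a1 : Nat.find ex ≤ d := Nat.find_min' ex h3
  have a2 : 0 < Nat.find ex := Nat.pos_of_ne_zero fun e => h2 fun y hy => by
    have k := Nat.find_spec ex
    rw [e, zero_add, pow_one] at k
    rw [sq, mul_assoc]
    exact k _ ((nf_of hT cV.prj hL (h.nf rows)).mn.mul hy)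
  have nu : Nu ct V (ct.c1 V Q.L) (Nat.find ex) := ⟨fun c => Nat.find_min ex
    (m := Nat.find ex - 1) (by omega) (by rwa [Nat.sub_add_cancel a2]), Nat.find_spec ex⟩
  refine cbe (fun w hw => gae_of (ih w hw)) h
    fun c => no ct hT V Q D t q C M h flc _ a2 a1 nu ?_
  have := P270U.tru ct hT _ V V _ _ modif_id _ 1 cV cV.prj one_pos (.inr ⟨hT.c1.deg V Q.L, c⟩)
  rwa [one_smul, hT.rg.pull_id] at this

/-- effective data, all dimensions -/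
theorem ga_all (no : ∀ d, 4 ≤ d → NOR d) (sa : SA fun e _ L => Eff e L) (n : ℕ) : GA n := by
  induction n using Nat.strong_induction_on with
  | _ n ih =>
  rcases le_or_gt n 4 with h | h
  · exact P270G.ga4 n h
  obtain ⟨d, rfl⟩ : ∃ d, n = d + 1 := ⟨n - 1, by omega⟩
  exact ga_step (no d (by omega)) (fun e κ ι _ A m N hA k => sa e κ ι A m N hA k.2) ih

/-- pseudo-effective data, all dimensions -/
theorem gap (no : ∀ d, 4 ≤ d → NOR d) (nv : ∀ d, NVS d) {n : ℕ} {V : Mf n} {Q : Rd V}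
    {D : Bd V.X} {t : D.ι → V.X → ℂ} {q : ℕ} {C M : Bd V.X} (hQ : Q.Ok)
    (h : SubPair n Q.E Q.s D t q C) (hC : Psef n C) (hM : IsLB n M) (hn : P285N.Tp.Nf V M)
    (hi : Iso n Q.L (C.mul M)) : NumSemiample n Q.L :=
  ga_all no (sa_all nv _) n V Q D t q C M ⟨hQ, h,
    P270G.efq_of P270G.hcg n (nv n) V Q D t q C M hQ h hC hM hn hi, hM, hn, hi⟩

/-- **GAC**: generalised abundance on normal projective varieties -/
theorem gac (no : ∀ d, 4 ≤ d → NOR d) (nv : ∀ d, NVS d) {n : ℕ} {V : Mf n} {D : Bd V.X}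
    {t : D.ι → V.X → ℂ} {q : ℕ} (hc : ConnectedSpace V.X) (hP : V.Prj) {X : P277.CSp}
    {C₀ M₀ : Bd X.pt} {μ : V.X → X.pt} {E : Bd V.X} {s : E.ι → V.X → ℂ} (h0 : SetupC n X μ E s)
    (lM : P277.IsLBx X M₀) (lD : P277.IsLBx X (C₀.mul M₀)) (nM : NefC X M₀)
    (nD : NefC X (C₀.mul M₀)) (h : SubPair n E s D t q (back μ C₀)) (hC : Psef n (back μ C₀)) :
    NumSemiampleX n X μ (C₀.mul M₀) := by
  obtain ⟨A, N, S, pe⟩ := h0.prj
  obtain ⟨Z, res, ex⟩ := h0.res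
  have k1 := P285L.K24.kly hc hP res.cont res.hol lM nM
  have b := birD P270V.A37.bpfg ⟨hc, hP⟩ h0.two pe lM lD h0.div res ex h k1
    (P285L.K24.kly hc hP res.cont res.hol lD nD)
  exact P285L.F47.dsfc h0.normal res hP lD (gap (Q := ⟨_, _, _, _, E, s⟩) no nv ⟨hc, hP, b⟩ h hC
    (P285L.T24.lb res.cont res.hol lM) k1 (P285N.Tp.iso_refl b.res.lbL))

/-- the smooth case, in all dimensions -/
theorem gas (no : ∀ d, 4 ≤ d → NOR d) (nv : ∀ d, NVS d) {n : ℕ} {V : Mf n} {D M : Bd V.X}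
    {t : D.ι → V.X → ℂ} {q : ℕ} {w : P285N.Tp.Wf V} (hc : ConnectedSpace V.X) (hP : V.Prj)
    (hw : IsKahler w) (hD : P285Z.St.Divisor n D t) (hq : 1 ≤ q) (hk : Klt n q D t)
    (hC : Psef n (P285Z.St.logCan n q D)) (hM : IsLB n M) (hm : Nef w M)
    (hn : Nef w ((P285Z.St.logCan n q D).mul M)) :
    NumSemiample n ((P285Z.St.logCan n q D).mul M) :=
  P270G.gp0 rows (ga_all no (sa_all nv _) n) (P270G.efq_of P270G.hcg n (nv n)) hc hP hw hD hq hk hC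
    hM hm hn

end Vale.Agent.P270Z
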