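import Vale.Agent.P270G.All4
import Vale.Agent.P270F.Sf.Sfc

/-!
# P270Z: no free null class, from the statement in the lower dimension
-/

open Set
open Vale.Agent.P272.K Vale.Agent.P285.H281.FD Vale.Agent.P281Z Vale.Agent.P280Z
open Vale.Agent.P277.HD (pull)
open Vale.Agent.P285N Vale.Agent.P285W Vale.Agent.P285W.J Vale.Agent.P285W.Bs
open Vale.Agent.P285N.Tp (FLC)
open Vale.Agent.P285S.B2 (Zr Nu)
open Vale.Agent.P270F.Tk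
open Vale.Agent.P270F.Mg (Frm)
open Vale.Agent.P270G

namespace Vale.Agent.P270Z

/-- the slice -/
theorem fyt (d : ℕ) : ForP (d + 1 + 1) fun T _ _ _ A m N => ∀ (L Λ : Bd A.Z.X) (ν : ℕ), ν ≤ d →
    Dn T A m N L Λ (ν + 1) → Neg (d + 1 + 1) (Tr T A.Z (T.c1 A.Z L)) →
    Frm T A.Z (zz T A.Z L Λ (ν + 1)) →
    ∃ (κ' ι' : Type) (_ : Fintype κ') (B : Pr (d + 1) κ' ι') (m' : κ' → ℤ) (N' : ℕ)
      (L' Λ' : Bd B.Z.X), Dn T B m' N' L' Λ' ν ∧ Neg (d + 1) (Tr T B.Z (T.c1 B.Z L')) := by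
  rintro T hT κ ι _ A m N L Λ ν hν h r ⟨κ₁, ι₁, _, B, m₁, N₁, r₁, Λ₁, π, S₁, hπ, k⟩
  obtain ⟨j, rfl⟩ := Nat.exists_eq_add_of_le hν
  have cA : Cp A.Z := ⟨h.cw.ok.conn, h.cw.ok.prj⟩
  have cB : Cp B.Z := ⟨k.ok.conn, k.ok.prj⟩
  have := cB.conn
  obtain ⟨c, c0, fb⟩ := fbu _ A.Z B.Z π S₁ Λ cB.conn cB.prj hπ h.fb
  obtain ⟨hg, hb⟩ := Fyn49.dm hT cB.conn fb
  have eg := hT.c1.pow B.Z _ c (hπ.hol.lb h.fb.lb)
  rw [hT.c1.pull hπ.hol _ h.fb.lb] at eg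
  have nl := nf_of hT cA.prj h.lb h.nef
  have lL := hπ.hol.lb h.lb
  have fL := P285S.Tp.nf_comp hπ.hol cA.prj h.lb h.nef
  have el := hT.c1.pull hπ.hol _ h.lb
  have u := nuu.nu T hT _ _ _ _ π _ hπ _ cA cB.prj nl h.nu
  have rf := nuu.tr T hT _ _ _ π _ hπ _ r
  have sc : ∀ e, T.int B.Z (e * T.pull hπ.hol (zz T A.Z L Λ (ν + 1))) = 0 →
      T.int B.Z (e * (T.c1 B.Z (pull π L) ^ (ν + 1) * T.c1 B.Z ((pull π Λ).pow c) ^ j)) = 0 :=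
    fun e he => by
    rw [map_mul (T.pull _), map_pow, map_pow, show ν + j + 1 - (ν + 1) = j by omega] at he
    rw [el, eg, smul_pow, mul_smul_comm, mul_smul_comm, map_smul, he, smul_zero]
  rw [← el] at u rf
  have hl : Nq T B.Z _ := ⟨nf_of hT cB.prj lL fL, _, lL, rfl⟩
  have lW := lb_pow k.ok.lb r₁
  have eW := hT.c1.pow B.Z _ r₁ k.ok.lb
  have hh := bf_nf hT ⟨_, lW, k.bpf, rfl⟩
  have dl := fun i => dg_mul hT (nf_dg hT hh) (dg_pow hT (nf_dg hT hl.1) i)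
  have h0 : T.int B.Z (T.c1 B.Z (B.P.pow r₁) * _) = 0 :=
    sc _ (by rw [eW, smul_mul_assoc, map_smul, k.nul, smul_zero])
  have h1 := zr_dm hT hg.1 hb (hh.mn.mul (hl.1.mn.pow (ν + 1))) (dl _) (j := j) (by omega)
    (by rwa [mul_assoc])
  have h2 := sq_zero hT cB hl hh u (by omega) h1
  have my := (hl.mz.pow ν).mul (hg.mz.pow j)
  have p1 := pos_dm hT hg.1 hb (hh.mn.mul (hl.1.mn.pow ν)) (dl _) (j := j + 1) (by omega)
    fun q => k.ne ((smul_eq_zero_iff_right (Nat.cast_pos.2 k.pos).ne').1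
      (eW ▸ eq_zero hT cB hl hh (by omega) u.1 q))
  obtain ⟨H, hH, pH, D, τ, hD, eD, hτ, x₀, hx⟩ := fb.big
  obtain ⟨κ', ι', _, C, m', N', i, hi, cw, im, ng, ps, le, nn⟩ :=
    P270F.Mg.slt_of bern (P270F.Mg.slice_of bern gen) _ T hT κ₁ ι₁ B m₁ N₁
    (B.P.pow r₁) r₁ 1 (Tr T B.Z (T.c1 B.Z (pull π L)) ∪ {x | ¬ NZ D τ x})
    (T.c1 B.Z (pull π L) ^ ν * T.c1 B.Z ((pull π Λ).pow c) ^ (j + 1)) k.ok k.klt lW
    k.bpf k.pos (by rw [one_smul, cls_pow k.ok.lb]) (rf.union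
      ((Un.an_z hD hτ).thin fun k => (k ▸ mem_univ x₀ : x₀ ∈ {x | ¬ NZ D τ x}) hx).neg)
    (by rwa [← mul_assoc])
  have := cw.ok.conn
  obtain ⟨y, hy⟩ := ng.dense.nonempty
  have fb' : Fb C.Z (pull i ((pull π Λ).pow c)) := ⟨hi.lb fb.lb, Un.bpf_pull hi fb.bpf, pull i H,
    hi.lb hH, hT.kp _ _ (hi.lb hH) (hT.c1.pull hi H hH ▸ kc_pull hT hi im (hT.c1.pos _ H hH pH)),
    pull i D, _, hi.lb hD, by rw [cls_pull hi hD, eD, map_sub, cls_pull hi fb.lb, cls_pull hi hH],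
    hi.sec hτ, y, not_not.1 fun k => hy (Or.inr k)⟩
  obtain ⟨hg', hb'⟩ := Fyn49.dm hT cw.ok.conn fb'
  have e1 := hT.c1.pull hi _ lL
  have e2 := hT.c1.pull hi _ fb.lb
  have n1 := nf_pull hT hi hl.1
  have ne : ¬ Zr T C.Z (T.pull hi (T.c1 B.Z (pull π L)) ^ ν) :=
    fun q => ps.ne' (by simpa only [map_mul, map_pow, e2] using q _ (hg'.1.mn.pow (j + 1)))
  refine ⟨κ', ι', inferInstance, C, m', N', pull i (pull π L), _,
    ⟨cw, hi.lb lL, P285S.Tp.nf_comp hi cB.prj lL fL, ?_, fb', fun a ha => ?_⟩, ?_⟩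
  · rw [e1]
    refine ⟨ne, zr_dm hT hg'.1 hb' (n1.mn.pow _)
      (dg_pow hT (nf_dg hT n1) _) (j := j) (by omega) ((mn_int hT ((n1.mn.pow _).mul
        (hg'.1.mn.pow j))).antisymm' ?_)⟩
    simpa only [map_mul, map_pow, e2, h0] using le _ ((hl.1.mn.pow (ν + 1)).mul (hg.1.mn.pow j))
  · rw [e1, e2, Nat.add_sub_cancel_left, ← map_pow, ← map_pow, ← map_mul]
    exact nn _ my.mn (by rw [← h2 _ (hg.1.mn.pow j)]; congr 1; ring) (fun b hb' O σ hO =>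
      weak hT cB hl hg hb hh u (by omega) h1 ⟨hT.tp.c1 _ _ hO.lb, hT.c1.deg _ _⟩
        (sc _ ((k.neg b hb').1 O σ hO))) a ha
  · rw [e1]
    exact ng.mono fun x q => (P270F.Sf.tr_pre hT hi _ q).elim .inl fun q => (q (im x)).elim

end Vale.Agent.P270Z
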